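import Vale.Agent.P281.H83.HKT.Spec
import Vale.Agent.P281.H603.TE.FibE
import Vale.Agent.P281.H603.TE.Core
import Mathlib.Topology.Covering.Quotient

/-!
# P281, project T-HKT (helper834): the covering `ℂ^a × H → F`
-/

open Set Filter Metric Vale.Agent.P281 Vale.Agent.P272.K
open scoped Topology ContDiff Manifold ComplexConjugate ComplexOrder

noncomputable section

namespace Vale.Agent.P281.H834.HKT

theorem sc_prod {V H : Type} [NormedAddCommGroup V] [NormedSpace ℝ V] [TopologicalSpace H]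
    [SimplyConnectedSpace H] : SimplyConnectedSpace (V × H) := by
  have h1 : ContractibleSpace V := inferInstance
  obtain ⟨e⟩ := h1.hequiv_unit
  have e2 : ContinuousMap.HomotopyEquiv (V × H) (Unit × H) :=
    e.prodCongr (ContinuousMap.HomotopyEquiv.refl H)
  have e3 : (Unit × H) ≃ₜ H := Homeomorph.punitProd H
  exact (e2.trans e3.toHomotopyEquiv).simplyConnectedSpace

/-- `g : ℂ^a × H → F` is the quotient by `Λ`. -/
structure GTH (h d : ℕ) {a : ℕ} {H F : Type} [TopologicalSpace H] [ChartedSpace (Cm h) H]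
    [TopologicalSpace F] [ChartedSpace (Cm d) F] (Λ : AddSubgroup (Cm a)) (g : Cm a × H → F) :
    Prop where
  surj : Function.Surjective g
  hol : ∀ x, ContMDiffAt (𝓘(ℂ, Cm a).prod 𝓘(ℂ, Cm h)) 𝓘(ℂ, Cm d) ω g x
  imm : ∀ x, Function.Injective (mfderiv (𝓘(ℂ, Cm a).prod 𝓘(ℂ, Cm h)) 𝓘(ℂ, Cm d) g x)
  eq : ∀ x x', g x = g x' ↔ x'.1 - x.1 ∈ Λ ∧ x.2 = x'.2

section
variable {a h d : ℕ} {H F : Type} [TopologicalSpace H] [ChartedSpace (Cm h) H]
  [TopologicalSpace F] [ChartedSpace (Cm d) F] [IsManifold 𝓘(ℂ, Cm h) ω H] [IsManifold 𝓘(ℂ, Cm d) ω F] {Λ : AddSubgroup (Cm a)}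
  {g : Cm a × H → F}

/-- `g` in charts. -/
def gch (g : Cm a × H → F) (e : OpenPartialHomeomorph H (Cm h))
    (c : OpenPartialHomeomorph F (Cm d)) (r : Cm a × Cm h) : Cm d := c (g (r.1, e.symm r.2))

theorem gch_cd (G : GTH h d Λ g) {q : Cm a × H} {e : OpenPartialHomeomorph H (Cm h)}
    (he : e ∈ atlas (Cm h) H) (hq : q.2 ∈ e.source) {c : OpenPartialHomeomorph F (Cm d)}
    (hc : c ∈ atlas (Cm d) F) (hg : g q ∈ c.source) :
    ContDiffAt ℂ ω (gch g e c) (q.1, e q.2) := by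
  have h0 : ((q.1, e.symm (e q.2)) : Cm a × H) = q := Prod.ext rfl (e.left_inv hq)
  have h1 : ContMDiffAt 𝓘(ℂ, Cm a × Cm h) 𝓘(ℂ, Cm a) ω (fun r : Cm a × Cm h => r.1)
      (q.1, e q.2) := contDiffAt_fst.contMDiffAt
  have h2 : ContMDiffAt 𝓘(ℂ, Cm a × Cm h) 𝓘(ℂ, Cm h) ω (fun r : Cm a × Cm h => r.2)
      (q.1, e q.2) := contDiffAt_snd.contMDiffAt
  have h3 : ContMDiffAt 𝓘(ℂ, Cm h) 𝓘(ℂ, Cm h) ω e.symm (e q.2) :=
    contMDiffAt_symm_of_mem_maximalAtlas (IsManifold.subset_maximalAtlas he) (e.map_source hq)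
  have h4 : ContMDiffAt 𝓘(ℂ, Cm a × Cm h) 𝓘(ℂ, Cm h) ω (fun r : Cm a × Cm h => e.symm r.2)
      (q.1, e q.2) := ContMDiffAt.comp (g := e.symm) (q.1, e q.2) h3 h2
  have h5 : ContMDiffAt 𝓘(ℂ, Cm a × Cm h) (𝓘(ℂ, Cm a).prod 𝓘(ℂ, Cm h)) ω
      (fun r : Cm a × Cm h => ((r.1, e.symm r.2) : Cm a × H)) (q.1, e q.2) := h1.prodMk h4
  have h6 : ContMDiffAt (𝓘(ℂ, Cm a).prod 𝓘(ℂ, Cm h)) 𝓘(ℂ, Cm d) ω g (q.1, e.symm (e q.2)) := by
    rw [h0]; exact G.hol q
  have h7 : ContMDiffAt 𝓘(ℂ, Cm a × Cm h) 𝓘(ℂ, Cm d) ω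
      (fun r : Cm a × Cm h => g (r.1, e.symm r.2)) (q.1, e q.2) :=
    ContMDiffAt.comp (g := g) (q.1, e q.2) h6 h5
  have h8 : ContMDiffAt 𝓘(ℂ, Cm d) 𝓘(ℂ, Cm d) ω c (g (q.1, e.symm (e q.2))) := by
    rw [h0]
    exact contMDiffAt_of_mem_maximalAtlas (IsManifold.subset_maximalAtlas hc) hg
  exact contMDiffAt_iff_contDiffAt.1 (ContMDiffAt.comp (g := c) (q.1, e q.2) h8 h7)

theorem gch_inj (G : GTH h d Λ g) {q : Cm a × H} {e : OpenPartialHomeomorph H (Cm h)}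
    (he : e ∈ atlas (Cm h) H) (hq : q.2 ∈ e.source) {c : OpenPartialHomeomorph F (Cm d)}
    (hc : c ∈ atlas (Cm d) F) (hg : g q ∈ c.source) :
    Function.Injective (fderiv ℂ (gch g e c) (q.1, e q.2)) := by
  -- `g = c⁻¹ ∘ gch ∘ Φ`
  have hΦ : ContMDiffAt (𝓘(ℂ, Cm a).prod 𝓘(ℂ, Cm h)) 𝓘(ℂ, Cm a × Cm h) ω
      (fun x : Cm a × H => ((x.1, e x.2) : Cm a × Cm h)) q := by
    have h1 : ContMDiffAt (𝓘(ℂ, Cm a).prod 𝓘(ℂ, Cm h)) 𝓘(ℂ, Cm a) ω
        (fun x : Cm a × H => x.1) q := contMDiffAt_fst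
    have h2 : ContMDiffAt (𝓘(ℂ, Cm a).prod 𝓘(ℂ, Cm h)) 𝓘(ℂ, Cm h) ω
        (fun x : Cm a × H => e x.2) q :=
      ContMDiffAt.comp (g := e) q
        (contMDiffAt_of_mem_maximalAtlas (IsManifold.subset_maximalAtlas he) hq) contMDiffAt_snd
    exact h1.prodMk_space h2
  have hgd : DifferentiableAt ℂ (gch g e c) (q.1, e q.2) :=
    (gch_cd G he hq hc hg).differentiableAt (by simp)
  have hcs : ContMDiffAt 𝓘(ℂ, Cm d) 𝓘(ℂ, Cm d) ω c.symm (gch g e c (q.1, e q.2)) := by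
    refine contMDiffAt_symm_of_mem_maximalAtlas (IsManifold.subset_maximalAtlas hc) ?_
    show c (g (q.1, e.symm (e q.2))) ∈ c.target
    rw [e.left_inv hq]
    exact c.map_source hg
  have hev : g =ᶠ[𝓝 q] c.symm ∘ (gch g e c) ∘ fun x : Cm a × H => ((x.1, e x.2) : Cm a × Cm h) := by
    have h1 : ∀ᶠ x : Cm a × H in 𝓝 q, x.2 ∈ e.source :=
      continuous_snd.continuousAt.eventually (e.open_source.mem_nhds hq)
    have h2 : ∀ᶠ x in 𝓝 q, g x ∈ c.source :=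
      (G.hol q).continuousAt.eventually (c.open_source.mem_nhds hg)
    filter_upwards [h1, h2] with x h3 h4
    show g x = c.symm (c (g (x.1, e.symm (e x.2))))
    rw [e.left_inv h3]
    exact (c.left_inv h4).symm
  have h1 := (hΦ.mdifferentiableAt (by simp)).hasMFDerivAt
  have h2 := hgd.mdifferentiableAt.hasMFDerivAt
  have h3 := (hcs.mdifferentiableAt (by simp)).hasMFDerivAt
  have h4 := (HasMFDerivAt.comp q h3 (HasMFDerivAt.comp q h2 h1)).congr_of_eventuallyEq hev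
  have h5 := h4.mfderiv
  set A : (Cm a × Cm h) →L[ℂ] (Cm a × Cm h) :=
    mfderiv (𝓘(ℂ, Cm a).prod 𝓘(ℂ, Cm h)) 𝓘(ℂ, Cm a × Cm h)
      (fun x : Cm a × H => ((x.1, e x.2) : Cm a × Cm h)) q with hA
  set C : Cm d →L[ℂ] Cm d := mfderiv 𝓘(ℂ, Cm d) 𝓘(ℂ, Cm d) c.symm (gch g e c (q.1, e q.2)) with hC
  have h6 : ∀ ξ : Cm a × Cm h, (mfderiv (𝓘(ℂ, Cm a).prod 𝓘(ℂ, Cm h)) 𝓘(ℂ, Cm d) g q ξ : Cm d) =
      C (fderiv ℂ (gch g e c) (q.1, e q.2) (A ξ)) := by
    intro ξ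
    have h7 := congrArg (fun L : (Cm a × Cm h) →L[ℂ] Cm d => L ξ) h5
    rw [mfderiv_eq_fderiv] at h7
    exact h7
  have hAi : Function.Injective A := by
    intro ξ ξ' hξ
    refine G.imm q ?_
    have e1 := h6 ξ
    have e2 := h6 ξ'
    rw [hξ] at e1
    exact e1.trans e2.symm
  have hAs : Function.Surjective A := LinearMap.injective_iff_surjective.1 hAi
  intro η η' hη
  obtain ⟨ξ, rfl⟩ := hAs η
  obtain ⟨ξ', rfl⟩ := hAs η'
  have e1 := h6 ξ
  have e2 := h6 ξ'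
  rw [hη] at e1
  rw [G.imm q (e1.trans e2.symm)]

/-- the local homeomorphism `gch` -/
theorem gch_homeo (G : GTH h d Λ g) (hd : a + h = d) {q : Cm a × H}
    {e : OpenPartialHomeomorph H (Cm h)} (he : e ∈ atlas (Cm h) H) (hq : q.2 ∈ e.source)
    {c : OpenPartialHomeomorph F (Cm d)} (hc : c ∈ atlas (Cm d) F) (hg : g q ∈ c.source) :
    ∃ R : OpenPartialHomeomorph (Cm a × Cm h) (Cm d), (R : Cm a × Cm h → Cm d) = gch g e c ∧
      (q.1, e q.2) ∈ R.source ∧ AnalyticAt ℂ R.symm (c (g q)) := by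
  have h1 := gch_cd G he hq hc hg
  have h2 := (h1.differentiableAt (by simp)).hasFDerivAt
  have h3 := gch_inj G he hq hc hg
  have hdim : Module.finrank ℂ (Cm a × Cm h) = Module.finrank ℂ (Cm d) := by
    rw [Module.finrank_prod]
    simp only [Module.finrank_fintype_fun_eq_card, Fintype.card_fin]
    exact hd
  set L : (Cm a × Cm h) ≃ₗ[ℂ] Cm d :=
    LinearEquiv.ofInjectiveOfFinrankEq (fderiv ℂ (gch g e c) (q.1, e q.2) :
      (Cm a × Cm h) →ₗ[ℂ] Cm d) h3 hdim with hL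
  have h4 : HasFDerivAt (gch g e c) ((L.toContinuousLinearEquiv : (Cm a × Cm h) ≃L[ℂ] Cm d) :
      (Cm a × Cm h) →L[ℂ] Cm d) (q.1, e q.2) :=
    h2.congr_fderiv (ContinuousLinearMap.ext fun ξ => rfl)
  refine ⟨h1.toOpenPartialHomeomorph (gch g e c) h4 (by simp), rfl,
    h1.mem_toOpenPartialHomeomorph_source h4 (by simp), ?_⟩
  have h5 : gch g e c (q.1, e q.2) = c (g q) := by
    show c (g (q.1, e.symm (e q.2))) = c (g q)
    rw [e.left_inv hq]
  have h6 := (h1.to_localInverse h4 (by simp)).analyticAt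
  rw [h5] at h6
  exact h6

theorem gmap (G : GTH h d Λ g) (hd : a + h = d) (q : Cm a × H) :
    Filter.map g (𝓝 q) = 𝓝 (g q) ∧ ∃ U ∈ 𝓝 q, U.InjOn g := by
  set e := chartAt (Cm h) q.2 with he
  set c := chartAt (Cm d) (g q) with hc
  have hq : q.2 ∈ e.source := mem_chart_source _ _
  have hg : g q ∈ c.source := mem_chart_source _ _
  obtain ⟨R, hR, hs, -⟩ := gch_homeo G hd (chart_mem_atlas _ _) hq (chart_mem_atlas _ _) hg
  have h1 : ∀ᶠ x : Cm a × H in 𝓝 q, x.2 ∈ e.source :=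
    continuous_snd.continuousAt.eventually (e.open_source.mem_nhds hq)
  have h2 : ∀ᶠ x in 𝓝 q, g x ∈ c.source :=
    (G.hol q).continuousAt.eventually (c.open_source.mem_nhds hg)
  have hΦm : Filter.map (fun x : Cm a × H => ((x.1, e x.2) : Cm a × Cm h)) (𝓝 q) =
      𝓝 (q.1, e q.2) := by
    have h3 : (𝓝 q : Filter (Cm a × H)) = 𝓝 q.1 ×ˢ 𝓝 q.2 := nhds_prod_eq
    rw [h3, nhds_prod_eq, ← e.map_nhds_eq hq]
    exact (Filter.prod_map_map_eq' (fun x : Cm a => x) e (𝓝 q.1) (𝓝 q.2)).symm.trans (by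
      rw [Filter.map_id'])
  constructor
  · have h4 : Filter.map R (𝓝 (q.1, e q.2)) = 𝓝 (R (q.1, e q.2)) := R.map_nhds_eq hs
    have h5 : R (q.1, e q.2) = c (g q) := by
      rw [hR]
      show c (g (q.1, e.symm (e q.2))) = c (g q)
      rw [e.left_inv hq]
    have h6 : Filter.map c.symm (𝓝 (c (g q))) = 𝓝 (g q) := by
      have h7 := c.symm.map_nhds_eq (c.map_source hg)
      rw [c.left_inv hg] at h7
      exact h7
    rw [← h6, ← h5, ← h4, ← hΦm, Filter.map_map, Filter.map_map]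
    refine Filter.map_congr ?_
    filter_upwards [h1, h2] with x h8 h9
    show g x = c.symm (R (x.1, e x.2))
    rw [hR]
    show g x = c.symm (c (g (x.1, e.symm (e x.2))))
    rw [e.left_inv h8, c.left_inv h9]
  · have h3 : ∀ᶠ x : Cm a × H in 𝓝 q, ((x.1, e x.2) : Cm a × Cm h) ∈ R.source := by
      have h4 : ∀ᶠ r in 𝓝 ((q.1, e q.2) : Cm a × Cm h), r ∈ R.source := R.open_source.mem_nhds hs
      rw [← hΦm, eventually_map] at h4
      exact h4
    refine ⟨_, inter_mem h1 h3, ?_⟩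
    rintro x ⟨hx1, hx2⟩ x' ⟨hx1', hx2'⟩ hxx
    have e1 : R (x.1, e x.2) = R (x'.1, e x'.2) := by
      rw [hR]
      show c (g (x.1, e.symm (e x.2))) = c (g (x'.1, e.symm (e x'.2)))
      rw [e.left_inv hx1, e.left_inv hx1', hxx]
    have e2 := R.injOn hx2 hx2' e1
    have e3 := congrArg Prod.fst e2
    have e4 := congrArg Prod.snd e2
    exact Prod.ext e3 (e.injOn hx1 hx1' e4)

/-- the translations -/
@[reducible] def actΛ (Λ : AddSubgroup (Cm a)) (H : Type) : AddAction Λ (Cm a × H) where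
  vadd l q := (q.1 + l, q.2)
  zero_vadd q := Prod.ext (add_zero _) rfl
  add_vadd l l' q := Prod.ext (by
    show q.1 + ((l : Cm a) + l') = q.1 + l' + l
    abel) rfl

theorem gcov (G : GTH h d Λ g) (hd : a + h = d) : IsCoveringMap g := by
  let := actΛ Λ H
  have hcont : Continuous g := continuous_iff_continuousAt.2 fun q => (G.hol q).continuousAt
  have hop : IsOpenMap g := isOpenMap_iff_nhds_le.2 fun q => (gmap G hd q).1.ge
  have hq : IsAddQuotientCoveringMap g Λ := by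
    refine { toIsQuotientMap := hop.isQuotientMap hcont G.surj, continuous_const_vadd := ?_,
             apply_eq_iff_mem_orbit := ?_, disjoint := ?_ }
    · intro l
      exact (continuous_fst.add continuous_const).prodMk continuous_snd
    · intro q q'
      rw [G.eq]
      constructor
      · rintro ⟨h1, h2⟩
        refine ⟨⟨-(q'.1 - q.1), Λ.neg_mem h1⟩, Prod.ext ?_ h2.symm⟩
        show q'.1 + -(q'.1 - q.1) = q.1
        abel
      · rintro ⟨l, rfl⟩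
        refine ⟨?_, rfl⟩
        show q'.1 - (q'.1 + l) ∈ Λ
        have : q'.1 - (q'.1 + l) = -(l : Cm a) := by abel
        rw [this]
        exact Λ.neg_mem l.2
    · intro q
      obtain ⟨U, hU, hi⟩ := (gmap G hd q).2
      refine ⟨U, hU, ?_⟩
      rintro l ⟨_, ⟨x, hx, rfl⟩, hx'⟩
      have h1 : g (l +ᵥ x) = g x := (G.eq _ _).2 ⟨by
        show x.1 - (x.1 + l) ∈ Λ
        have : x.1 - (x.1 + l) = -(l : Cm a) := by abel
        rw [this]
        exact Λ.neg_mem l.2, rfl⟩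
      have h2 := hi hx' hx h1
      have h3 : x.1 + (l : Cm a) = x.1 := congrArg Prod.fst h2
      exact Subtype.ext (by simpa using h3)
  exact hq.isCoveringMap

end

end Vale.Agent.P281.H834.HKT
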