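import Mathlib

/-!
# P281, project T-HKT (helper834): `E ≃ ℂ^a × H` over `F → Z`
-/

open Set Filter

noncomputable section

namespace Vale.Agent.P281.H834.HKT

/-- `E → B` and `F → B` are coverings, `V → F` is a covering, `E` and `V` are simply connected:
`E` and `V` are isomorphic over `B`. -/
theorem exists_tau {E V F B : Type} [TopologicalSpace E] [TopologicalSpace V] [TopologicalSpace F]
    [TopologicalSpace B] [SimplyConnectedSpace E] [LocallyPathConnectedSpace E]
    [SimplyConnectedSpace V] [LocallyPathConnectedSpace V] {c : E → B} {c' : F → B} {g : V → F}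
    (hc : IsCoveringMap c) (hc' : IsCoveringMap c') (hg : IsCoveringMap g) {e₀ : E} {v₀ : V}
    (h : c' (g v₀) = c e₀) : ∃ τ : E ≃ₜ V, ∀ e, c' (g (τ e)) = c e := by
  obtain ⟨π, ⟨h1, h2⟩, -⟩ := hc'.existsUnique_continuousMap_lifts ⟨c, hc.continuous⟩ e₀ (g v₀) h
  obtain ⟨τ, ⟨h3, h4⟩, -⟩ := hg.existsUnique_continuousMap_lifts π e₀ v₀ h1.symm
  obtain ⟨ρ, ⟨h5, h6⟩, -⟩ := hc.existsUnique_continuousMap_lifts
    ⟨fun v => c' (g v), hc'.continuous.comp hg.continuous⟩ v₀ e₀ h.symm
  have h2' : ∀ e, c' (π e) = c e := fun e => congrFun h2 e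
  have h4' : ∀ e, g (τ e) = π e := fun e => congrFun h4 e
  have h6' : ∀ v, c (ρ v) = c' (g v) := fun v => congrFun h6 v
  have e1 : (fun e => ρ (τ e)) = fun e => e := by
    refine hc.eq_of_comp_eq (ρ.continuous.comp τ.continuous) continuous_id ?_ e₀ ?_
    · funext e
      show c (ρ (τ e)) = c e
      rw [h6', h4', h2']
    · show ρ (τ e₀) = e₀
      rw [h3, h5]
  have e2 : (fun v => π (ρ v)) = g := by
    refine hc'.eq_of_comp_eq (π.continuous.comp ρ.continuous) hg.continuous ?_ v₀ ?_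
    · funext v
      show c' (π (ρ v)) = c' (g v)
      rw [h2', h6']
    · show π (ρ v₀) = g v₀
      rw [h5, h1]
  have e3 : (fun v => τ (ρ v)) = fun v => v := by
    refine hg.eq_of_comp_eq (τ.continuous.comp ρ.continuous) continuous_id ?_ v₀ ?_
    · funext v
      show g (τ (ρ v)) = g v
      rw [h4']
      exact congrFun e2 v
    · show τ (ρ v₀) = v₀
      rw [h5, h3]
  refine ⟨⟨⟨τ, ρ, fun e => congrFun e1 e, fun v => congrFun e3 v⟩, τ.continuous, ρ.continuous⟩,
    fun e => ?_⟩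
  show c' (g (τ e)) = c e
  rw [h4', h2']

end Vale.Agent.P281.H834.HKT
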