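import Vale.Agent.P281.H834.HK.GenC

/-!
# P281, project T-HKT (helper834): `h^{2,0}` is constant in a family of compact Kähler manifolds
-/

open Set Filter Metric MeasureTheory
open scoped Topology ContDiff ComplexConjugate ComplexOrder

noncomputable section

namespace Vale.Agent.P281.H834.HKT

open Vale.Agent.P281.H64.TK Vale.Agent.P281.H64.TK.TS
open Vale.Agent.P281.H64 (Cm)
open Vale.Agent.P281.H83.HK (bW W3 kw ts cjs cj tf Bc kc Hol2 Gen2 FormsStmt PosStmt HIStmt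
  PullMark2Stmt KConst2Stmt)
open Vale.Agent.P281.H747.TS (l2_ext sum_ap exact_congr exact_zero exact_smul exact_add_smul
  cl2_congr cl2_zero cl2_add_smul cl2_smul cl2_add cl2_sub cl2_sum cl_unique cl_congr cl_add_smul
  cl_of_exact exact_of_cl cl_zero cl_add cl_lin cl_im cl_conj bil_re bil_right dot_symm PhiP
  PhiP_apply)
open Vale.Agent.P281.H834.HK

/-- The space of closed holomorphic 2-forms has dimension `h`. -/
def HolRk {d : ℕ} {E Γ : Type} [TopologicalSpace E] [Group Γ] [MulAction Γ E] (S : Sheets d E Γ)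
    (h : ℕ) : Prop :=
  ∃ b : Fin h → Fin S.N → Cm d → Matrix (Fin d) (Fin d) ℂ, (∀ k, Hol2 S (b k)) ∧
    (∀ c : Fin h → ℂ, (∀ i, ∀ z ∈ ball (0 : Cm d) 3, ∑ k, c k • b k i z = 0) → c = 0) ∧
    ∀ s, Hol2 S s → ∃ c : Fin h → ℂ, ∀ i, ∀ z ∈ ball (0 : Cm d) 3, s i z = ∑ k, c k • b k i z

section
variable {d : ℕ} {E Γ : Type} [TopologicalSpace E] [Group Γ] [MulAction Γ E] {S : Sheets d E Γ}

theorem hol2_sum {ι : Type} (t : Finset ι) {b : ι → Fin S.N → Cm d → Matrix (Fin d) (Fin d) ℂ}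
    (hb : ∀ k ∈ t, Hol2 S (b k)) (c : ι → ℂ) : Hol2 S (fun i z => ∑ k ∈ t, c k • b k i z) := by
  classical
  induction t using Finset.induction_on with
  | empty => simpa using hol2_zero (S := S)
  | insert j t hj ih =>
    have h1 := hol2_add_smul (ih fun k hk => hb k (Finset.mem_insert_of_mem hk))
      (hb j (Finset.mem_insert_self j t)) (c j)
    have e : (fun i z => ∑ k ∈ insert j t, c k • b k i z) =
        fun i z => (∑ k ∈ t, c k • b k i z) + c j • b j i z := by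
      funext i z
      rw [Finset.sum_insert hj, add_comm]
    rw [e]
    exact h1
end

section
variable {d : ℕ} {E Γ : Type} [TopologicalSpace E] [T2Space E] [Group Γ] [Subsingleton Γ]
  [MulAction Γ E] [ContinuousConstSMul Γ E] {S : Sheets d E Γ}
  {w : Fin S.N → Cm d → Matrix (Fin d) (Fin d) ℂ}

omit [T2Space E] [ContinuousConstSMul Γ E] [Subsingleton Γ] in
theorem cl_ts_sum (I : Inp S w) {n : ℕ} (M : Mark2 S n) {ι : Type} (t : Finset ι)
    {b : ι → Fin S.N → Cm d → Matrix (Fin d) (Fin d) ℂ} (hb : ∀ k ∈ t, Hol2 S (b k)) (c : ι → ℂ) :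
    M.cl (ts fun i z => ∑ k ∈ t, c k • b k i z) = ∑ k ∈ t, c k • M.cl (ts (b k)) := by
  classical
  induction t using Finset.induction_on with
  | empty =>
    rw [Finset.sum_empty]
    exact cl_ts_zero M fun i z _ => by simp
  | insert j t hj ih =>
    have e : (fun i z => ∑ k ∈ insert j t, c k • b k i z) =
        fun i z => (∑ k ∈ t, c k • b k i z) + c j • b j i z := by
      funext i z
      rw [Finset.sum_insert hj, add_comm]
    rw [e, cl_ts_add_smul I M (hol2_sum t (fun k hk => hb k (Finset.mem_insert_of_mem hk)) c)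
      (hb j (Finset.mem_insert_self j t)), ih fun k hk => hb k (Finset.mem_insert_of_mem hk),
      Finset.sum_insert hj, add_comm]

theorem cl_ts_congr (I : Inp S w) {n : ℕ} (M : Mark2 S n)
    {s s' : Fin S.N → Cm d → Matrix (Fin d) (Fin d) ℂ} (h : Hol2 S s)
    (e : ∀ i, ∀ z ∈ ball (0 : Cm d) 3, s i z = s' i z) : M.cl (ts s) = M.cl (ts s') :=
  cl_congr M (I.cl s h) fun i z hz => by
    show tf (s i z) = tf (s' i z)
    rw [e i z hz]

theorem holRk_iff (I : Inp S w) {n : ℕ} (M : Mark2 S n) (h : ℕ) :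
    HolRk S h ↔ Module.finrank ℂ (Ls I M) = h := by
  constructor
  · rintro ⟨b, hb, hi, hs⟩
    let v : Fin h → Ls I M := fun k => ⟨M.cl (ts (b k)), b k, hb k, rfl⟩
    have hv : ∀ c : Fin h → ℂ, ((∑ k, c k • v k : Ls I M) : Fin n → ℂ) =
        M.cl (ts fun i z => ∑ k, c k • b k i z) := by
      intro c
      rw [cl_ts_sum I M Finset.univ (fun k _ => hb k) c]
      simp [v]
    have hli : LinearIndependent ℂ v := by
      rw [Fintype.linearIndependent_iff]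
      intro c hc
      have h1 : M.cl (ts fun i z => ∑ k, c k • b k i z) = 0 := by
        rw [← hv c, hc]; rfl
      exact congrFun (hi c (ts_inj I M (hol2_sum Finset.univ (fun k _ => hb k) c) h1))
    have hsp : ⊤ ≤ Submodule.span ℂ (Set.range v) := by
      rintro ⟨_, s, hs', rfl⟩ -
      obtain ⟨c, hc⟩ := hs s hs'
      have h1 : (⟨M.cl (ts s), s, hs', rfl⟩ : Ls I M) = ∑ k, c k • v k := by
        refine Subtype.ext ?_
        rw [hv c]
        exact cl_ts_congr I M hs' hc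
      rw [h1]
      exact Submodule.sum_mem _ fun k _ =>
        Submodule.smul_mem _ _ (Submodule.subset_span ⟨k, rfl⟩)
    rw [Module.finrank_eq_card_basis (Module.Basis.mk hli hsp), Fintype.card_fin]
  · intro hf
    let e : Module.Basis (Fin h) ℂ (Ls I M) := Module.finBasisOfFinrankEq ℂ (Ls I M) hf
    have hex : ∀ k, ∃ s, Hol2 S s ∧ M.cl (ts s) = (e k : Fin n → ℂ) := fun k => (e k).2
    choose b hb hbe using hex
    refine ⟨b, hb, ?_, ?_⟩
    · intro c hc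
      have h1 : M.cl (ts fun i z => ∑ k, c k • b k i z) = 0 := cl_ts_zero M hc
      rw [cl_ts_sum I M Finset.univ (fun k _ => hb k) c] at h1
      have h2 : ∑ k, c k • e k = 0 := by
        refine Subtype.ext ?_
        rw [Submodule.coe_sum]
        simpa [hbe] using h1
      funext k
      exact Fintype.linearIndependent_iff.1 e.linearIndependent c h2 k
    · intro s hs
      refine ⟨fun k => e.repr ⟨_, s, hs, rfl⟩ k, ?_⟩
      have h1 := congrArg Subtype.val (e.sum_repr ⟨_, s, hs, rfl⟩)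
      rw [Submodule.coe_sum] at h1
      set c : Fin h → ℂ := fun k => e.repr ⟨_, s, hs, rfl⟩ k with hc
      have h2 : ∑ k, c k • M.cl (ts (b k)) = M.cl (ts s) := by
        simpa [hbe, hc] using h1
      rw [← cl_ts_sum I M Finset.univ (fun k _ => hb k) c] at h2
      have h3 := hol2_sum Finset.univ (fun k _ => hb k) c
      have h4 := cl_ts_add_smul I M hs h3 (-1)
      rw [h2, neg_one_smul, add_neg_cancel] at h4
      intro i z hz
      have h5 := ts_inj I M (hol2_add_smul hs h3 (-1)) h4 i z hz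
      rw [neg_one_smul, ← sub_eq_add_neg, sub_eq_zero] at h5
      exact h5

end

section
variable {p d : ℕ} {E Γ : Type} [TopologicalSpace E] [T2Space E] [PreconnectedSpace E] [Group Γ]
  [Subsingleton Γ] [MulAction Γ E] [ContinuousConstSMul Γ E] (𝓕 : Fam p d E Γ)

theorem holRk_empty {S : Sheets d E Γ} (hE : ¬ Nonempty E) (h : ℕ) : HolRk S h ↔ h = 0 := by
  have h0 : ∀ i : Fin S.N, False := fun i => hE ⟨S.σ i 0⟩
  constructor
  · rintro ⟨b, -, hi, -⟩
    by_contra hh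
    have : Nonempty (Fin h) := ⟨⟨0, by omega⟩⟩
    have h1 := hi (fun _ => 1) fun i => (h0 i).elim
    exact one_ne_zero (congrFun h1 (Classical.arbitrary _))
  · rintro rfl
    exact ⟨fun k => k.elim0, fun k => k.elim0, fun c _ => Subsingleton.elim _ _,
      fun s _ => ⟨fun k => k.elim0, fun i => (h0 i).elim⟩⟩

/-- Near `t₀`. -/
theorem h20_loc (hMk : MarkStmt) (hP : PullStmt) (hF : FormsStmt) (hPos : PosStmt) (hHI : HIStmt)
    (hPM : PullMark2Stmt) (hK : KConst2Stmt) (hSig : SigStmt)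
    {W : Fin 𝓕.N → Cm p × Cm d → Matrix (Fin p ⊕ Fin d) (Fin p ⊕ Fin d) ℂ} (hd : 2 ≤ d)
    (hKF : KFam 𝓕 W) {t₀ : Cm p} (ht₀ : t₀ ∈ 𝓕.T) :
    ∀ᶠ t in 𝓝 t₀, ∀ ht : t ∈ 𝓕.T, ∀ h, HolRk (𝓕.at t ht) h ↔ HolRk (𝓕.at t₀ ht₀) h := by
  classical
  by_cases hE : Nonempty E
  swap
  · exact Filter.Eventually.of_forall fun t ht h => by
      rw [holRk_empty hE, holRk_empty hE]
  have hd0 : 0 < d := by omega
  have hw : ∀ t (ht : t ∈ 𝓕.T), Kah (𝓕.at t ht) (fibW W t) := fun t ht => H603.K.kah_fib hKF ht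
  obtain ⟨n₀, ⟨M₀⟩⟩ := hMk d E Γ (𝓕.at t₀ ht₀) hd0
  have hex : ∀ t (ht : t ∈ 𝓕.T), ∃ α, Cl2 (𝓕.at t₀ ht₀) α ∧
      Pull2 (𝓕.at t₀ ht₀) (𝓕.at t ht) id α (kw (N := (𝓕.at t ht).N) (fibW W t)) := by
    intro t ht
    exact (hP d E Γ (𝓕.at t₀ ht₀) E Γ (𝓕.at t ht) (Homeomorph.refl E) hd0
      (dif_fib 𝓕 ht₀ ht)).2.1 _ (kw_cl2 (hw t ht))
  choose a ha using hex
  set α : Cm p → Fin (𝓕.at t₀ ht₀).N → Cm d → L2 d :=
    fun t => if ht : t ∈ 𝓕.T then a t ht else fun _ _ => 0 with hα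
  have hα1 : ∀ t (ht : t ∈ 𝓕.T), α t = a t ht := fun t ht => dif_pos ht
  have hα2 : ∀ t (ht : t ∈ 𝓕.T), Cl2 (𝓕.at t₀ ht₀) (α t) ∧
      Pull2 (𝓕.at t₀ ht₀) (𝓕.at t ht) id (α t) (kw (N := (𝓕.at t ht).N) (fibW W t)) := by
    intro t ht
    rw [hα1 t ht]
    exact ha t ht
  filter_upwards [hK p d E Γ 𝓕 W t₀ ht₀ n₀ M₀ α hd0 hKF hα2] with t h1 ht h
  -- the difference is exact
  have k0 : Cl2 (𝓕.at t₀ ht₀) (kw (N := (𝓕.at t₀ ht₀).N) (fibW W t₀)) := kw_cl2 (hw t₀ ht₀)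
  have k1 : Cl2 (𝓕.at t₀ ht₀) (α t) := (hα2 t ht).1
  have h2 : M₀.cl (α t₀) = M₀.cl (kw (N := (𝓕.at t₀ ht₀).N) (fibW W t₀)) :=
    cl_congr M₀ (hα2 t₀ ht₀).1 (pull_self 𝓕 ht₀ (hα2 t₀ ht₀).2)
  have h3 : Exact (𝓕.at t₀ ht₀)
      (fun i z => α t i z - kw (N := (𝓕.at t₀ ht₀).N) (fibW W t₀) i z) := by
    refine exact_of_cl M₀ (cl2_sub k1 k0) ?_
    have h4 := cl_add_smul M₀ k1 k0 (-1)
    have h5 : M₀.cl (fun i z => α t i z - kw (N := (𝓕.at t₀ ht₀).N) (fibW W t₀) i z) =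
        M₀.cl (fun i z => α t i z + (-1 : ℂ) • kw (N := (𝓕.at t₀ ht₀).N) (fibW W t₀) i z) :=
      cl_congr M₀ (cl2_sub k1 k0) fun i z _ => l2_ext fun u v => by
        show α t i z u v - kw (N := (𝓕.at t₀ ht₀).N) (fibW W t₀) i z u v =
          α t i z u v + (-1 : ℂ) * kw (N := (𝓕.at t₀ ht₀).N) (fibW W t₀) i z u v
        ring
    rw [h5, h4, h1, h2, neg_one_smul, add_neg_cancel]
  -- the markings
  obtain ⟨n, ⟨M'⟩⟩ := hMk d E Γ (𝓕.at t ht) hd0
  obtain ⟨M, hB, -, -⟩ := hPM d E Γ (𝓕.at t₀ ht₀) E Γ (𝓕.at t ht) (Homeomorph.refl E) n M'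
    (fibW W t₀) (fibW W t) (α t) hd (dif_fib 𝓕 ht₀ ht) (hw t₀ ht₀) (hw t ht) k1 (hα2 t ht).2 h3
  have I₀ : Inp (𝓕.at t₀ ht₀) (fibW W t₀) := mkInp hF hPos hHI hd (hw t₀ ht₀)
  have I : Inp (𝓕.at t ht) (fibW W t) := mkInp hF hPos hHI hd (hw t ht)
  have hfin := hSig n (Bc M (kw (fibW W t₀))) (Bc_symm hd M _)
    (LinearMap.range (PhiP (Ls I₀ M) (kc M (fibW W t₀))))
    (LinearMap.range (PhiP (Ls I M') (kc M' (fibW W t))))
    (by
      rintro _ ⟨q, rfl⟩ hq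
      refine phi_pos I₀ M hE q ?_
      rintro rfl
      exact hq (map_zero _))
    (by
      rintro _ ⟨q, rfl⟩ hq
      rw [hB]
      refine phi_pos I M' hE q ?_
      rintro rfl
      exact hq (map_zero _))
    (fun x hx h => phi_neg I₀ M x hx h)
    (fun x hx h => by
      rw [hB] at h ⊢
      exact phi_neg I M' x hx h)
  rw [finrank_range I₀ M hE, finrank_range I M' hE] at hfin
  rw [holRk_iff I M' h, holRk_iff I₀ M h]
  omega

end

/-- **`h^{2,0}` is constant.** -/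
def H20Stmt : Prop :=
  ∀ (p d : ℕ) (E Γ : Type) [TopologicalSpace E] [T2Space E] [PreconnectedSpace E] [Group Γ]
    [Subsingleton Γ] [MulAction Γ E] [ContinuousConstSMul Γ E] (𝓕 : Fam p d E Γ)
    (W : Fin 𝓕.N → Cm p × Cm d → Matrix (Fin p ⊕ Fin d) (Fin p ⊕ Fin d) ℂ), 2 ≤ d → KFam 𝓕 W →
    ∀ t (ht : t ∈ 𝓕.T) t' (ht' : t' ∈ 𝓕.T) (h : ℕ), HolRk (𝓕.at t ht) h → HolRk (𝓕.at t' ht') h

/-- **`h^{2,0}` is constant**, from `MarkStmt`, `PullStmt`, I0, I3, HI, D4', F3, signature. -/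
theorem h20Const (hMk : MarkStmt) (hP : PullStmt) (hF : FormsStmt) (hPos : PosStmt)
    (hHI : HIStmt) (hPM : PullMark2Stmt) (hK : KConst2Stmt) (hSig : SigStmt) : H20Stmt := by
  intro p d E Γ _ _ _ _ _ _ _ 𝓕 W hd hKF t ht t' ht' h h1
  have : PreconnectedSpace 𝓕.T := Subtype.preconnectedSpace 𝓕.conn
  have hl : IsLocallyConstant (fun t : 𝓕.T => HolRk (𝓕.at t.1 t.2) h) := by
    rw [IsLocallyConstant.iff_eventually_eq]
    rintro ⟨t₀, ht₀⟩
    have h2 := h20_loc 𝓕 hMk hP hF hPos hHI hPM hK hSig hd hKF ht₀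
    have h3 : Tendsto (Subtype.val : 𝓕.T → Cm p) (𝓝 ⟨t₀, ht₀⟩) (𝓝 t₀) :=
      continuous_subtype_val.continuousAt
    filter_upwards [h3.eventually h2] with t h4
    exact propext (h4 t.2 h)
  have h5 := hl.apply_eq_of_preconnectedSpace ⟨t, ht⟩ ⟨t', ht'⟩
  exact (iff_of_eq h5).1 h1

end Vale.Agent.P281.H834.HKT
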