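import Vale.Agent.P281.H834.HKT.H20
import Vale.Agent.P281.H83.HKT.Spec

/-!
# P281, project T-HKT (helper834): blocks `Fin2Stmt`, `HodgeConstStmt`
-/

open Set Filter Metric MeasureTheory
open scoped Topology ContDiff ComplexConjugate ComplexOrder

noncomputable section

namespace Vale.Agent.P281.H834.HKT

open Vale.Agent.P281.H64.TK Vale.Agent.P281.H64.TK.TS
open Vale.Agent.P281.H64 (Cm)
open Vale.Agent.P281.H83.HK (FormsStmt PosStmt HIStmt PullMark2Stmt KConst2Stmt)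
open Vale.Agent.P281.H83.HKT (Bas2 Fin2Stmt HodgeConstStmt)
open Vale.Agent.P281.H834.HK

theorem holRk_of_bas2 {d : ℕ} {E Γ : Type} [TopologicalSpace E] [Group Γ] [MulAction Γ E]
    {S : Sheets d E Γ} {h : ℕ} {b : Fin h → Fin S.N → Cm d → Matrix (Fin d) (Fin d) ℂ}
    (H : Bas2 S b) : HolRk S h := ⟨b, H.form, H.indep, H.span⟩

theorem bas2_of_holRk {d : ℕ} {E Γ : Type} [TopologicalSpace E] [Group Γ] [MulAction Γ E]
    {S : Sheets d E Γ} {h : ℕ} (H : HolRk S h) :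
    ∃ b : Fin h → Fin S.N → Cm d → Matrix (Fin d) (Fin d) ℂ, Bas2 S b := by
  obtain ⟨b, h1, h2, h3⟩ := H
  exact ⟨b, h1, h2, h3⟩

/-- **`Fin2Stmt`.** -/
theorem fin2 (hMk : MarkStmt) (hF : FormsStmt) (hPos : PosStmt) (hHI : HIStmt) : Fin2Stmt := by
  intro d E Γ _ _ _ _ _ _ _ S w hd hw
  have I : Inp S w := mkInp hF hPos hHI hd hw
  obtain ⟨n, ⟨M⟩⟩ := hMk d E Γ S (by omega)
  exact ⟨_, bas2_of_holRk ((holRk_iff I M _).2 rfl)⟩

/-- **`HodgeConstStmt`.** -/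
theorem hodgeConst (hMk : MarkStmt) (hP : PullStmt) (hF : FormsStmt) (hPos : PosStmt)
    (hHI : HIStmt) (hPM : PullMark2Stmt) (hK : KConst2Stmt) (hSig : SigStmt) :
    HodgeConstStmt := by
  intro p d h E Γ _ _ _ _ _ _ _ 𝓕 W hd hKF t ht t' ht' h1
  obtain ⟨b, hb⟩ := h1
  exact bas2_of_holRk (h20Const hMk hP hF hPos hHI hPM hK hSig p d E Γ 𝓕 W hd hKF t ht t' ht' h
    (holRk_of_bas2 (S := 𝓕.at t ht) hb))

end Vale.Agent.P281.H834.HKT
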