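import Vale.Agent.P281.H834.HKT.Cov

/-!
# P281, project T-HKT (helper834): block TH1: the class of `θ_1 ∧ ⋯ ∧ θ_a / κ` is locally constant in a
family
-/

open Set Filter Metric MeasureTheory
open scoped Topology ContDiff ComplexConjugate ComplexOrder

noncomputable section

namespace Vale.Agent.P281.H834.HKT

open Vale.Agent.P281.H64.TK Vale.Agent.P281.H64.TK.TS
open Vale.Agent.P281.H64 (Cm Mark)
open Vale.Agent.P281.H399.QT
open Vale.Agent.P281.H83.HKT (dF cov tT thl thj ThRel BasTStmt)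

/-- The periods of additive functions are additive. -/
theorem per_add {a d : ℕ} {E K : Type} [TopologicalSpace E] [Nonempty E] [Group K] [MulAction K E]
    {S : Sheets d E K} {F : E → Fin a → ℂ} {c : K → Fin a → ℂ}
    (h : ∀ j, Add S (fun e => F e j) (fun γ => c γ j)) (x y : K) (j : Fin a) :
    c (x * y) j = c x j + c y j := by
  obtain ⟨e⟩ := ‹Nonempty E›
  have h1 : F ((x * y) • e) j = F e j + c (x * y) j := (h j).add (x * y) e
  have h2 : F (x • y • e) j = F (y • e) j + c x j := (h j).add x (y • e)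
  have h3 : F (y • e) j = F e j + c y j := (h j).add y e
  rw [mul_smul, h2, h3] at h1
  linear_combination -h1

theorem continuousAt_det {a : ℕ} {V : Type} [TopologicalSpace V] {K : Type} [Group K]
    (M : Mark K (a + a)) {c : V → K → Fin a → ℂ} {t₀ : V}
    (h : ∀ γ j, ContinuousAt (fun t => c t γ j) t₀) :
    ContinuousAt (fun t => (PA M (c t)).det) t₀ := by
  have h1 : ContinuousAt (fun t => PA M (c t)) t₀ := by
    refine continuousAt_pi.2 fun k => continuousAt_pi.2 fun l => ?_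
    rcases k with j | j
    · exact Complex.continuous_re.continuousAt.comp (h (M.g (finSumFinEquiv l)) j)
    · exact Complex.continuous_im.continuousAt.comp (h (M.g (finSumFinEquiv l)) j)
  have h2 : Continuous fun A : Matrix (Fin a ⊕ Fin a) (Fin a ⊕ Fin a) ℝ => A.det :=
    Continuous.matrix_det continuous_id
  exact h2.continuousAt.comp h1

/-- `ThConstStmt` with `a ≤ d`. -/
def ThConstStmt' : Prop :=
  ∀ (p d a : ℕ) (E K : Type) [TopologicalSpace E] [T2Space E] [SimplyConnectedSpace E] [Group K]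
    [MulAction K E] [ContinuousConstSMul K E] (𝓕 : Fam p d E K)
    (W : Fin 𝓕.N → Cm p × Cm d → Matrix (Fin p ⊕ Fin d) (Fin p ⊕ Fin d) ℂ) (M : Mark K (a + a))
    (T' : Set (Cm p)) (hT' : T' ⊆ 𝓕.T) (F : Cm p → E → Fin a → ℂ) (c : Cm p → K → Fin a → ℂ)
    (t₀ : Cm p) (ht₀ : t₀ ∈ T'), 0 < d → a ≤ d → KFam 𝓕 W → IsOpen T' →
    (∀ t (ht : t ∈ T'), IsBas (𝓕.at t (hT' ht)) (F t) (c t)) →
    (∀ γ j, ∀ t ∈ T', AnalyticAt ℂ (fun s => c s γ j) t) →
    ∀ᶠ t in 𝓝 t₀, ∀ ht : t ∈ T', ThRel (quo (𝓕.at t₀ (hT' ht₀))) (dF (𝓕.at t₀ (hT' ht₀)) (F t₀))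
      (cov M (c t₀)) (quo (𝓕.at t (hT' ht))) (dF (𝓕.at t (hT' ht)) (F t)) (cov M (c t)) id

/-- **TH1.** -/
theorem thConst' (hB : BasTStmt) : ThConstStmt' := by
  intro p d a E K _ _ _ _ _ _ 𝓕 W M T' hT' F c t₀ ht₀ hd had hKF hT'o hbas hol
  have hne : ∀ t (ht : t ∈ T'), (PA M (c t)).det ≠ 0 := by
    intro t ht
    have h1 := (hB d a E K (𝓕.at t (hT' ht)) (fibW W t) M (F t) (c t) hd
      (H603.K.kah_fib hKF (hT' ht)) (hbas t ht)).2.2
    rw [cov_eq] at h1
    exact abs_pos.1 h1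
  have hc := continuousAt_det M (c := c) (t₀ := t₀) fun γ j => (hol γ j t₀ ht₀).continuousAt
  have h0 : 0 < (PA M (c t₀)).det * (PA M (c t₀)).det := mul_self_pos.2 (hne t₀ ht₀)
  have h1 : ContinuousAt (fun t => (PA M (c t₀)).det * (PA M (c t)).det) t₀ :=
    continuousAt_const.mul hc
  have hev : ∀ᶠ t in 𝓝 t₀, 0 < (PA M (c t₀)).det * (PA M (c t)).det := h1 (Ioi_mem_nhds h0)
  filter_upwards [hev] with t hs ht
  have : T2Space (Qs K E) := t2_quo (𝓕.at t₀ (hT' ht₀))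
  exact thRel_of_sign (S := 𝓕.at t₀ (hT' ht₀)) (S' := 𝓕.at t (hT' ht)) hd had
    (𝓕.compat t₀ t (hT' ht₀) (hT' ht)) hs (per_add (hbas t₀ ht₀).add) (per_add (hbas t ht).add)
    (hbas t₀ ht₀).add (hbas t ht).add

/-- **`ThConstStmt`.** -/
theorem thConst (hB : BasTStmt) : H83.HKT.ThConstStmt := by
  intro p d a E K _ _ _ _ _ _ 𝓕 W M T' hT' F c t₀ ht₀ hd hKF hT'o hbas hol
  exact thConst' hB p d a E K 𝓕 W M T' hT' F c t₀ ht₀ (by omega) (by omega) hKF hT'o hbas hol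

end Vale.Agent.P281.H834.HKT
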