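import Vale.Agent.P281.H702.HK.B1
import Vale.Agent.P281.H83.HKT.Spec

/-!
# P281, project T-HKT (helper834): block HOLP: the periods of a holomorphic family of closed holomorphic
2-forms are holomorphic
-/

open Set Filter Metric MeasureTheory Vale.Agent.P272.K Vale.Agent.P281.H64.TK
  Vale.Agent.P281.H64.TK.TS
open Vale.Agent.P281.H83.HK
open scoped Topology ContDiff ComplexConjugate

noncomputable section

namespace Vale.Agent.P281.H834.HKT

/-- **`HolPTStmt`.** -/
theorem holPT : H83.HKT.HolPTStmt := by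
  intro p d E Γ _ _ _ _ _ _ 𝓕 T' hT' s t₀ ht₀ n M α hd hT'o hs h2 hα k
  exact H702.HK.b1 𝓕 hd hT' hT'o (fun i t ht z hz j k => hs i t ht z hz j k)
    (fun i t ht z hz => (h2 t ht).alt i z hz)
    (fun i t ht z hz => (h2 t ht).closed i z hz) ht₀ M α hα k

end Vale.Agent.P281.H834.HKT
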