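import Vale.Agent.P281.H834.HKT.Wedge
import Vale.Agent.P281.H399.QT.Quo
import Vale.Agent.P281.MF.Hol

/-!
# P281, project T-HKT (helper834): additive functions on `E` and closed 1-forms on `E / Γ`
-/

open Set Filter Metric MeasureTheory
open scoped Topology ContDiff ComplexConjugate ComplexOrder

noncomputable section

namespace Vale.Agent.P281.H834.HKT

open Vale.Agent.P281.H64.TK Vale.Agent.P281.H64.TK.TS
open Vale.Agent.P281.H64 (Cm)
open Vale.Agent.P281.H399.QT

variable {d : ℕ} {E Γ : Type} [TopologicalSpace E] [Group Γ] [MulAction Γ E]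

/-- `X : E → ℂ` is smooth and additive, with periods `a`. -/
structure CAdd (S : Sheets d E Γ) (X : E → ℂ) (a : Γ → ℂ) : Prop where
  smooth : ∀ i, ∀ z ∈ ball (0 : Cm d) 3, ContDiffAt ℝ ∞ (fun u => X (S.σ i u)) z
  add : ∀ (γ : Γ) (e : E), X (γ • e) = X e + a γ

/-- The differential of `X`, in the sheets of `E / Γ`. -/
def dX (S : Sheets d E Γ) (X : E → ℂ) (i : Fin S.N) (z : Cm d) : L1 d :=
  fderiv ℝ (fun u => X (S.σ i u)) z

variable {S : Sheets d E Γ}

theorem CAdd.of_Add {h : E → ℂ} {c : Γ → ℂ} (H : Add S h c) : CAdd S h c where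
  smooth i z hz := by
    have h1 : AnalyticAt ℂ (fun u => h (S.σ i u)) z :=
      MF.analyticOnNhd_of_differentiableOn isOpen_ball (H.hol i) z hz
    exact h1.contDiffAt.restrict_scalars ℝ
  add := H.add

theorem CAdd.sub {X X' : E → ℂ} {a a' : Γ → ℂ} (h : CAdd S X a) (h' : CAdd S X' a') :
    CAdd S (fun e => X e - X' e) (fun γ => a γ - a' γ) where
  smooth i z hz := (h.smooth i z hz).sub (h'.smooth i z hz)
  add γ e := by rw [h.add, h'.add]; ring

theorem CAdd.real_of {X : E → ℝ} {a : Γ → ℝ}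
    (hs : ∀ i, ContDiffOn ℝ ∞ (fun z => X (S.σ i z)) (ball 0 3))
    (ha : ∀ (γ : Γ) (e : E), X (γ • e) = X e + a γ) :
    CAdd S (fun e => (X e : ℂ)) (fun γ => (a γ : ℂ)) where
  smooth i z hz := Complex.ofRealCLM.contDiff.contDiffAt.comp z
    ((hs i).contDiffAt (isOpen_ball.mem_nhds hz))
  add γ e := by rw [ha]; push_cast; rfl

theorem dX_smooth {X : E → ℂ} {a : Γ → ℂ} (h : CAdd S X a) (i : Fin S.N) {z : Cm d}
    (hz : z ∈ ball (0 : Cm d) 3) : ContDiffAt ℝ ∞ (dX S X i) z :=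
  (h.smooth i z hz).fderiv_right (by simp)

/-- The chain rule, along a map which is covered by `τ : E → E'`. -/
theorem dX_change [ContinuousConstSMul Γ E] {E' Γ' : Type} [TopologicalSpace E'] [Group Γ']
    [MulAction Γ' E'] [ContinuousConstSMul Γ' E'] {S' : Sheets d E' Γ'} {τ : E → E'}
    (hτ : Continuous τ) {X' : E' → ℂ} {a' : Γ' → ℂ} (h' : CAdd S' X' a') {i : Fin S.N}
    {j : Fin S'.N} {z z' : Cm d} (hz : z ∈ ball (0 : Cm d) 3) (hz' : z' ∈ ball (0 : Cm d) 3)
    {ψ : Cm d → Cm d} (h1 : ContDiffAt ℝ ∞ ψ z) (h2 : ψ z = z')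
    (h3 : ∀ᶠ u in 𝓝 z, pj Γ' (τ (S.σ i u)) = pj Γ' (S'.σ j (ψ u))) (v : Cm d) :
    dX S (fun e => X' (τ e)) i z v = dX S' X' j z' (fderiv ℝ ψ z v) := by
  have hc : ContinuousAt (fun u => τ (S.σ i u)) z :=
    hτ.continuousAt.comp (S.map_nhds i z hz).le
  obtain ⟨γ, h4⟩ := ev_lift S' hc hz' h1.continuousAt h2 h3
  have h5 : (fun u => X' (τ (S.σ i u))) =ᶠ[𝓝 z] fun u => X' (S'.σ j (ψ u)) + a' γ := by
    filter_upwards [h4] with u hu
    rw [hu, h'.add]
  unfold dX
  rw [h5.fderiv_eq, fderiv_add_const]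
  subst h2
  have h6 : DifferentiableAt ℝ (fun u => X' (S'.σ j u)) (ψ z) :=
    (h'.smooth j _ hz').differentiableAt (by simp)
  have h7 : DifferentiableAt ℝ ψ z := h1.differentiableAt (by simp)
  have h8 := fderiv_comp z h6 h7
  rw [show (fun u => X' (S'.σ j (ψ u))) = (fun u => X' (S'.σ j u)) ∘ ψ from rfl, h8]
  rfl

section
variable [ContinuousConstSMul Γ E]

/-- **The differential of an additive function is a closed 1-form on the quotient.** -/
theorem dX_cl1 {X : E → ℂ} {a : Γ → ℂ} (h : CAdd S X a) : Cl1 (quo S) (dX S X) where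
  smooth i z hz _ := dX_smooth h i hz
  change i j z hz z' hz' _ ψ hψ v := dX_change (τ := id) continuous_id h hz hz' hψ.1 hψ.2.1 hψ.2.2 v
  closed i z hz u v := by
    have h1 : ContDiffAt ℝ ∞ (fun u => X (S.σ i u)) z := h.smooth i z hz
    exact (h1.isSymmSndFDerivAt (by
      simp only [minSmoothness_of_isRCLikeNormedField]
      exact WithTop.coe_le_coe.2 le_top)).eq u v

/-- **The pull-back of the differential.** -/
theorem dX_pull {S' : Sheets d E Γ} {X : E → ℂ} {a : Γ → ℂ} (h : CAdd S' X a) {i : Fin S.N}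
    {j : Fin S'.N} {z z' : Cm d} (hz : z ∈ ball (0 : Cm d) 3) (hz' : z' ∈ ball (0 : Cm d) 3)
    {ψ : Cm d → Cm d} (hψ : Tr (quo S) (quo S') id i j z z' ψ) (v : Cm d) :
    dX S X i z v = dX S' X j z' (fderiv ℝ ψ z v) :=
  dX_change (τ := id) continuous_id h hz hz' hψ.1 hψ.2.1 hψ.2.2 v

/-- **Two additive functions with the same periods differ by a function on the quotient.** -/
theorem dX_diff {X X' : E → ℂ} {a : Γ → ℂ} (h : CAdd S X a) (h' : CAdd S X' a) :
    ∃ g : Qs Γ E → ℂ, SmOn (quo S) univ g ∧ ∀ i, ∀ z ∈ ball (0 : Cm d) 3,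
      fderiv ℝ (fun u => g ((quo S).σ i u)) z = dX S X i z - dX S X' i z := by
  have hinv : ∀ x y : E, MulAction.orbitRel Γ E x y → X x - X' x = X y - X' y := by
    intro x y hxy
    rw [MulAction.orbitRel_apply, MulAction.mem_orbit_iff] at hxy
    obtain ⟨γ, rfl⟩ := hxy
    rw [h.add, h'.add]
    ring
  refine ⟨fun m => Quotient.lift (s := MulAction.orbitRel Γ E) (fun e => X e - X' e) hinv m, ?_, ?_⟩
  · intro i z hz _
    exact (h.smooth i z hz).sub (h'.smooth i z hz)
  · intro i z hz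
    exact fderiv_fun_sub ((h.smooth i z hz).differentiableAt (by simp))
      ((h'.smooth i z hz).differentiableAt (by simp))

/-- **The class of `dX ∧ dY` depends on the periods only.** -/
theorem dX_wd_exact {X X' Y Y' : E → ℂ} {a b : Γ → ℂ} (hX : CAdd S X a) (hX' : CAdd S X' a)
    (hY : CAdd S Y b) (hY' : CAdd S Y' b) :
    Exact (quo S) (fun i z => wd1 (dX S X i z) (dX S Y i z) - wd1 (dX S X' i z) (dX S Y' i z)) := by
  obtain ⟨g, hg, eg⟩ := dX_diff hX hX'
  obtain ⟨g', hg', eg'⟩ := dX_diff hY hY'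
  exact wd1_exact_sub (S := quo S) (dX_cl1 hX') (dX_cl1 hY) hg hg' eg eg'

omit [ContinuousConstSMul Γ E] in
/-- A smooth function for `S'` is smooth for `S`, if they have the same smooth structure. -/
theorem CAdd.compat {S' : Sheets d E Γ} (hc : Compat S S') {X : E → ℂ} {a : Γ → ℂ}
    (h : CAdd S' X a) : CAdd S X a where
  smooth i z hz := by
    obtain ⟨γ, j, w, hw, he⟩ := S'.cover (S.σ i z)
    have hw3 : w ∈ ball (0 : Cm d) 3 := by
      rw [mem_ball_zero_iff]
      linarith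
    obtain ⟨ψ, h1, h2, -, h4⟩ := hc i j z hz w hw3 γ he.symm
    have h5 : (fun u => X (S.σ i u)) =ᶠ[𝓝 z] fun u => X (S'.σ j (ψ u)) + a γ := by
      filter_upwards [h4] with u hu
      rw [hu, h.add]
    refine ContDiffAt.congr_of_eventuallyEq ?_ h5
    subst h2
    exact ((h.smooth j _ hw3).comp z h1).add contDiffAt_const
  add := h.add

end

end Vale.Agent.P281.H834.HKT
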