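import Vale.Agent.P281.H834.HKT.Add
import Vale.Agent.P281.H191.HKT.Th
import Vale.Agent.P281.H834.HK.GenC
import Vale.Agent.P281.H83.HKT.Spec

/-!
# P281, project T-HKT (helper834): `θ_1 ∧ ⋯ ∧ θ_a` is the determinant of the periods times an integral
class
-/

open Set Filter Metric MeasureTheory
open scoped Topology ContDiff ComplexConjugate ComplexOrder

noncomputable section

namespace Vale.Agent.P281.H834.HKT

open Vale.Agent.P281.H64.TK Vale.Agent.P281.H64.TK.TS
open Vale.Agent.P281.H64 (Cm Mark)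
open Vale.Agent.P281.H399.QT
open Vale.Agent.P281.H83.HKT (dF cov tT thl thj ThRel)
open Vale.Agent.P281.H191.HKT (W_subst row1 row1_apply thj_apply)
open Vale.Agent.P281.H747.TS (l2_ext)
open Vale.Agent.P281.H864.HK (Wint W_eq)

variable {a d : ℕ} {E K : Type} [TopologicalSpace E] [Group K] [MulAction K E]

/-- The real and imaginary parts of the components of `F`. -/
def XR (F : E → Fin a → ℂ) (k : Fin a ⊕ Fin a) (e : E) : ℂ :=
  Sum.elim (fun j => ((F e j).re : ℂ)) (fun j => ((F e j).im : ℂ)) k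

/-- The real matrix of the periods. -/
def PA (M : Mark K (a + a)) (c : K → Fin a → ℂ) : Matrix (Fin a ⊕ Fin a) (Fin a ⊕ Fin a) ℝ :=
  Matrix.of fun (k l : Fin a ⊕ Fin a) => Sum.elim
    (fun j => (c (M.g (finSumFinEquiv l)) j).re) (fun j => (c (M.g (finSumFinEquiv l)) j).im) k

theorem cov_eq (M : Mark K (a + a)) (c : K → Fin a → ℂ) : cov M c = |(PA M c).det| := rfl

/-- The coordinates of `F` in the lattice of the periods. -/
def xc (M : Mark K (a + a)) (c : K → Fin a → ℂ) (F : E → Fin a → ℂ) (l : Fin a ⊕ Fin a) (e : E) :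
    ℂ := ∑ k, (((PA M c)⁻¹ l k : ℝ) : ℂ) * XR F k e

variable {S : Sheets d E K}

theorem CAdd.sum {ι : Type} (t : Finset ι) {X : ι → E → ℂ} {p : ι → K → ℂ}
    (h : ∀ k, CAdd S (X k) (p k)) (r : ι → ℂ) :
    CAdd S (fun e => ∑ k ∈ t, r k * X k e) (fun γ => ∑ k ∈ t, r k * p k γ) where
  smooth i z hz := ContDiffAt.sum fun k _ => contDiffAt_const.mul ((h k).smooth i z hz)
  add γ e := by
    rw [← Finset.sum_add_distrib]
    exact Finset.sum_congr rfl fun k _ => by rw [(h k).add]; ring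

theorem dX_sum {ι : Type} (t : Finset ι) {X : ι → E → ℂ} {p : ι → K → ℂ}
    (h : ∀ k, CAdd S (X k) (p k)) (r : ι → ℂ) (i : Fin S.N) {z : Cm d}
    (hz : z ∈ ball (0 : Cm d) 3) :
    dX S (fun e => ∑ k ∈ t, r k * X k e) i z = ∑ k ∈ t, r k • dX S (X k) i z := by
  have hd : ∀ k, DifferentiableAt ℝ (fun u => X k (S.σ i u)) z := fun k =>
    ((h k).smooth i z hz).differentiableAt (by simp)
  unfold dX
  rw [fderiv_fun_sum fun k _ => (hd k).const_mul (r k)]
  exact Finset.sum_congr rfl fun k _ => fderiv_const_mul (hd k) (r k)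

theorem cadd_XR {F : E → Fin a → ℂ} {c : K → Fin a → ℂ}
    (h : ∀ j, CAdd S (fun e => F e j) (fun γ => c γ j)) (k : Fin a ⊕ Fin a) :
    CAdd S (XR F k) (fun γ => Sum.elim (fun j => ((c γ j).re : ℂ)) (fun j => ((c γ j).im : ℂ)) k) := by
  rcases k with j | j
  · refine ⟨fun i z hz => ?_, fun γ e => ?_⟩
    · exact (Complex.ofRealCLM.comp Complex.reCLM).contDiff.contDiffAt.comp z
        ((h j).smooth i z hz)
    · show (((F (γ • e) j).re : ℝ) : ℂ) = ((F e j).re : ℂ) + ((c γ j).re : ℂ)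
      have h1 : F (γ • e) j = F e j + c γ j := (h j).add γ e
      rw [h1, Complex.add_re]
      push_cast
      rfl
  · refine ⟨fun i z hz => ?_, fun γ e => ?_⟩
    · exact (Complex.ofRealCLM.comp Complex.imCLM).contDiff.contDiffAt.comp z
        ((h j).smooth i z hz)
    · show (((F (γ • e) j).im : ℝ) : ℂ) = ((F e j).im : ℂ) + ((c γ j).im : ℂ)
      have h1 : F (γ • e) j = F e j + c γ j := (h j).add γ e
      rw [h1, Complex.add_im]
      push_cast
      rfl

omit [TopologicalSpace E] [MulAction K E] in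
theorem per_eq (M : Mark K (a + a)) {c : K → Fin a → ℂ}
    (hc : ∀ x y j, c (x * y) j = c x j + c y j) (k : Fin a ⊕ Fin a) (γ : K) :
    Sum.elim (fun j => (c γ j).re) (fun j => (c γ j).im) k =
      ∑ m, PA M c k m * (M.φ (finSumFinEquiv m) γ : ℝ) := by
  rcases k with j | j
  · show (c γ j).re = ∑ m, (c (M.g (finSumFinEquiv m)) j).re * (M.φ (finSumFinEquiv m) γ : ℝ)
    rw [M.complete (fun γ => (c γ j).re) (fun x y => by
      show (c (x * y) j).re = _
      rw [hc, Complex.add_re]) γ]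
    exact (Equiv.sum_comp finSumFinEquiv
      (fun m => (c (M.g m) j).re * (M.φ m γ : ℝ))).symm
  · show (c γ j).im = ∑ m, (c (M.g (finSumFinEquiv m)) j).im * (M.φ (finSumFinEquiv m) γ : ℝ)
    rw [M.complete (fun γ => (c γ j).im) (fun x y => by
      show (c (x * y) j).im = _
      rw [hc, Complex.add_im]) γ]
    exact (Equiv.sum_comp finSumFinEquiv
      (fun m => (c (M.g m) j).im * (M.φ m γ : ℝ))).symm

/-- **The coordinates are additive, with the integral periods of the marking.** -/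
theorem cadd_xc {M : Mark K (a + a)} {F : E → Fin a → ℂ} {c : K → Fin a → ℂ}
    (hdet : (PA M c).det ≠ 0) (hc : ∀ x y j, c (x * y) j = c x j + c y j)
    (h : ∀ j, CAdd S (fun e => F e j) (fun γ => c γ j)) (l : Fin a ⊕ Fin a) :
    CAdd S (xc M c F l) (fun γ => ((M.φ (finSumFinEquiv l) γ : ℝ) : ℂ)) := by
  have h1 := CAdd.sum (S := S) Finset.univ (fun k => cadd_XR h k)
    (fun k => (((PA M c)⁻¹ l k : ℝ) : ℂ))
  have h2 : (fun γ => ∑ k, (((PA M c)⁻¹ l k : ℝ) : ℂ) *
      Sum.elim (fun j => ((c γ j).re : ℂ)) (fun j => ((c γ j).im : ℂ)) k) =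
      fun γ => ((M.φ (finSumFinEquiv l) γ : ℝ) : ℂ) := by
    funext γ
    have h3 : ∀ k, Sum.elim (fun j => ((c γ j).re : ℂ)) (fun j => ((c γ j).im : ℂ)) k =
        ((Sum.elim (fun j => (c γ j).re) (fun j => (c γ j).im) k : ℝ) : ℂ) := by
      rintro (k | k) <;> rfl
    simp only [h3]
    rw [← Complex.ofReal_inj.2 (show ∑ k, (PA M c)⁻¹ l k *
      Sum.elim (fun j => (c γ j).re) (fun j => (c γ j).im) k =
      (M.φ (finSumFinEquiv l) γ : ℝ) from ?_)]
    · push_cast
      rfl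
    · have h4 : Sum.elim (fun j => (c γ j).re) (fun j => (c γ j).im) =
          (PA M c).mulVec (fun m => (M.φ (finSumFinEquiv m) γ : ℝ)) := by
        funext k
        exact per_eq M hc k γ
      show ((PA M c)⁻¹).mulVec (Sum.elim (fun j => (c γ j).re) (fun j => (c γ j).im)) l = _
      rw [h4, Matrix.mulVec_mulVec, Matrix.nonsing_inv_mul _ (isUnit_iff_ne_zero.2 hdet),
        Matrix.one_mulVec]
  rw [h2] at h1
  exact h1

omit [TopologicalSpace E] [MulAction K E] in
theorem XR_eq {M : Mark K (a + a)} {F : E → Fin a → ℂ} {c : K → Fin a → ℂ}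
    (hdet : (PA M c).det ≠ 0) (k : Fin a ⊕ Fin a) :
    XR F k = fun e => ∑ l, ((PA M c k l : ℝ) : ℂ) * xc M c F l e := by
  funext e
  set A : Matrix (Fin a ⊕ Fin a) (Fin a ⊕ Fin a) ℂ := (PA M c).map (fun x : ℝ => (x : ℂ)) with hA
  set B : Matrix (Fin a ⊕ Fin a) (Fin a ⊕ Fin a) ℂ := ((PA M c)⁻¹).map (fun x : ℝ => (x : ℂ)) with hB
  have h1 : A * B = 1 := by
    have h2 : A * B = (PA M c * (PA M c)⁻¹).map Complex.ofRealHom :=
      (Matrix.map_mul (f := Complex.ofRealHom)).symm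
    rw [h2, Matrix.mul_nonsing_inv _ (isUnit_iff_ne_zero.2 hdet)]
    exact Matrix.map_one _ (map_zero _) (map_one _)
  show XR F k e = A.mulVec (B.mulVec fun k => XR F k e) k
  rw [Matrix.mulVec_mulVec, h1, Matrix.one_mulVec]

/-- The differentials of the real and imaginary parts of `F`. -/
theorem dX_XR {F : E → Fin a → ℂ} {i : Fin S.N} {z : Cm d} (j : Fin a)
    (h : DifferentiableAt ℂ (fun u => F (S.σ i u) j) z) (v : Cm d) :
    dX S (XR F (Sum.inl j)) i z v = ((row1 (dF S F i z) j v).re : ℂ) ∧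
      dX S (XR F (Sum.inr j)) i z v = ((row1 (dF S F i z) j v).im : ℂ) := by
  have h1 : row1 (dF S F i z) j v = fderiv ℂ (fun u => F (S.σ i u) j) z v := by
    rw [row1_apply]
    conv_rhs => rw [pi_eq_sum_univ' v]
    rw [map_sum]
    refine Finset.sum_congr rfl fun l _ => ?_
    rw [map_smul, smul_eq_mul, mul_comm]
    rfl
  have h2 := h.hasFDerivAt.restrictScalars ℝ
  rw [h1]
  constructor
  · have h3 : HasFDerivAt (fun u => XR F (Sum.inl j) (S.σ i u))
        ((Complex.ofRealCLM.comp Complex.reCLM).comp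
          ((fderiv ℂ (fun u => F (S.σ i u) j) z).restrictScalars ℝ)) z :=
      (Complex.ofRealCLM.comp Complex.reCLM).hasFDerivAt.comp z h2
    unfold dX
    rw [h3.fderiv]
    rfl
  · have h3 : HasFDerivAt (fun u => XR F (Sum.inr j) (S.σ i u))
        ((Complex.ofRealCLM.comp Complex.imCLM).comp
          ((fderiv ℂ (fun u => F (S.σ i u) j) z).restrictScalars ℝ)) z :=
      (Complex.ofRealCLM.comp Complex.imCLM).hasFDerivAt.comp z h2
    unfold dX
    rw [h3.fderiv]
    rfl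

theorem thj_dX {F : E → Fin a → ℂ} {i : Fin S.N} {z : Cm d} (j : Fin a)
    (h : DifferentiableAt ℂ (fun u => F (S.σ i u) j) z) (x y : Cm d) :
    thj (dF S F i z) j x y =
      dX S (XR F (Sum.inl j)) i z x * dX S (XR F (Sum.inr j)) i z y -
        dX S (XR F (Sum.inl j)) i z y * dX S (XR F (Sum.inr j)) i z x := by
  rw [thj_apply, (dX_XR j h x).1, (dX_XR j h x).2, (dX_XR j h y).1, (dX_XR j h y).2]
  apply Complex.ext
  · simp
    ring
  · simp
    ring

/-! ### The determinant -/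

/-- The list `(ξ_1, ..., ξ_a, x_a, ..., x_(d-1))`. -/
def thx (ξ : Fin a → L2 d) (x : Fin d → L2 d) (i : Fin d) : L2 d :=
  if h : i.val < a then ξ ⟨i.val, h⟩ else x i

/-- The first `a` places. -/
def Ja (a d : ℕ) : Finset (Fin d) := Finset.univ.filter fun i => i.val < a

theorem mem_Ja {i : Fin d} : i ∈ Ja a d ↔ i.val < a := by simp [Ja]

/-- The places of the 1-forms. -/
def eJ (had : a ≤ d) : (Ja a d) × Fin 2 ≃ Fin a ⊕ Fin a where
  toFun p := if p.2 = 0 then Sum.inl ⟨p.1.1.val, mem_Ja.1 p.1.2⟩ else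
    Sum.inr ⟨p.1.1.val, mem_Ja.1 p.1.2⟩
  invFun := Sum.elim
    (fun j => (⟨⟨j.val, lt_of_lt_of_le j.2 had⟩, mem_Ja.2 j.2⟩, 0))
    (fun j => (⟨⟨j.val, lt_of_lt_of_le j.2 had⟩, mem_Ja.2 j.2⟩, 1))
  left_inv := by
    rintro ⟨⟨⟨v, hv⟩, hm⟩, e⟩
    fin_cases e <;> simp
  right_inv := by
    rintro (j | j) <;> simp

theorem eJ_zero (had : a ≤ d) {j : Fin d} (hj : j ∈ Ja a d) :
    eJ had (⟨j, hj⟩, 0) = Sum.inl ⟨j.val, mem_Ja.1 hj⟩ := rfl

theorem eJ_one (had : a ≤ d) {j : Fin d} (hj : j ∈ Ja a d) :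
    eJ had (⟨j, hj⟩, 1) = Sum.inr ⟨j.val, mem_Ja.1 hj⟩ := rfl

/-- **`W(θ_1, ..., θ_a, x)` is the determinant of the periods times `W` of the integral forms.** -/
theorem W_cov {M : Mark K (a + a)} {F : E → Fin a → ℂ} {c : K → Fin a → ℂ} (had : a ≤ d)
    (hdet : (PA M c).det ≠ 0) (hc : ∀ x y j, c (x * y) j = c x j + c y j)
    (h : ∀ j, Add S (fun e => F e j) (fun γ => c γ j)) {i : Fin S.N} {z : Cm d}
    (hz : z ∈ ball (0 : Cm d) 3) (x : Fin d → L2 d) :
    H83.HK.W (thl (dF S F i z) x) = (((PA M c).det : ℝ) : ℂ) *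
      H83.HK.W (thx (fun j => wd1 (dX S (xc M c F (Sum.inl j)) i z)
        (dX S (xc M c F (Sum.inr j)) i z)) x) := by
  have hC : ∀ j, CAdd S (fun e => F e j) (fun γ => c γ j) := fun j => CAdd.of_Add (h j)
  have hd : ∀ j, DifferentiableAt ℂ (fun u => F (S.σ i u) j) z := fun j =>
    ((h j).hol i).differentiableAt (isOpen_ball.mem_nhds hz)
  have hX := fun l => cadd_xc (S := S) hdet hc hC l
  set A : Matrix (Fin a ⊕ Fin a) (Fin a ⊕ Fin a) ℂ := (PA M c).map (fun x : ℝ => (x : ℂ)) with hA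
  have hA1 : (A.submatrix (eJ had) (eJ had)).det = (((PA M c).det : ℝ) : ℂ) := by
    rw [Matrix.det_submatrix_equiv_self]
    exact (RingHom.map_det Complex.ofRealHom (PA M c)).symm
  rw [← hA1]
  refine W_subst (Ja a d) _ _ (fun q => dX S (xc M c F (eJ had q)) i z)
    (fun p => dX S (XR F (eJ had p)) i z) (A.submatrix (eJ had) (eJ had)) ?_ ?_ ?_ ?_
  · intro p
    show dX S (XR F (eJ had p)) i z =
      ∑ q, A (eJ had p) (eJ had q) • dX S (xc M c F (eJ had q)) i z
    rw [Equiv.sum_comp (eJ had) (fun l => A (eJ had p) l • dX S (xc M c F l) i z),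
      ← dX_sum Finset.univ hX (fun l => A (eJ had p) l) i hz]
    rw [XR_eq (M := M) (c := c) hdet (eJ had p)]
    rfl
  · intro j hj
    have hj' : ¬ j.val < a := fun hh => hj (mem_Ja.2 hh)
    simp only [thl, thx, hj', dite_false]
  · intro j hj u v
    have hj' := mem_Ja.1 hj
    simp only [thx, hj', dite_true, eJ_zero, eJ_one, wd1_apply]
  · intro j hj u v
    have hj' := mem_Ja.1 hj
    simp only [thl, hj', dite_true, eJ_zero, eJ_one]
    exact thj_dX ⟨j.val, hj'⟩ (hd _) u v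

/-! ### The integral -/

section
variable [ContinuousConstSMul K E]

/-- The list `(dX_1 ∧ dY_1, ..., dX_a ∧ dY_a, x_a, ..., x_(d-1))`. -/
def txl (S : Sheets d E K) (X : Fin a ⊕ Fin a → E → ℂ) (x : Fin d → Fin S.N → Cm d → L2 d)
    (l : Fin d) : Fin (quo S).N → Cm d → L2 d :=
  if h : l.val < a then
    fun i z => wd1 (dX S (X (Sum.inl ⟨l.val, h⟩)) i z) (dX S (X (Sum.inr ⟨l.val, h⟩)) i z)
  else x l

theorem thx_lt {ξ : Fin a → L2 d} {x : Fin d → L2 d} {l : Fin d} (h : l.val < a) :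
    thx ξ x l = ξ ⟨l.val, h⟩ := dif_pos h

theorem thx_ge {ξ : Fin a → L2 d} {x : Fin d → L2 d} {l : Fin d} (h : ¬ l.val < a) :
    thx ξ x l = x l := dif_neg h

theorem txl_lt {X : Fin a ⊕ Fin a → E → ℂ} {x : Fin d → Fin S.N → Cm d → L2 d} {l : Fin d}
    (h : l.val < a) : txl S X x l = fun i z =>
      wd1 (dX S (X (Sum.inl ⟨l.val, h⟩)) i z) (dX S (X (Sum.inr ⟨l.val, h⟩)) i z) := dif_pos h

theorem txl_ge {X : Fin a ⊕ Fin a → E → ℂ} {x : Fin d → Fin S.N → Cm d → L2 d} {l : Fin d}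
    (h : ¬ l.val < a) : txl S X x l = x l := dif_neg h

theorem tT_cov {M : Mark K (a + a)} {F : E → Fin a → ℂ} {c : K → Fin a → ℂ} (had : a ≤ d)
    (hdet : (PA M c).det ≠ 0) (hc : ∀ x y j, c (x * y) j = c x j + c y j)
    (h : ∀ j, Add S (fun e => F e j) (fun γ => c γ j)) (x : Fin d → Fin S.N → Cm d → L2 d) :
    tT (quo S) (dF S F) x = (((PA M c).det : ℝ) : ℂ) * Wint (quo S) (txl S (xc M c F) x) := by
  have h1 : tT (quo S) (dF S F) x = (quo S).int fun i z => (((PA M c).det : ℝ) : ℂ) *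
      H83.HK.W (fun l => txl S (xc M c F) x l i z) := by
    unfold tT
    refine H864.HK.int_congr (quo S) fun i z hz => ?_
    have h2 := W_cov (S := S) (i := i) had hdet hc h hz (fun l => x l i z)
    refine h2.trans ?_
    congr 2
    funext l
    by_cases hl : l.val < a
    · rw [thx_lt hl, txl_lt hl]
    · rw [thx_ge hl, txl_ge hl]
  rw [h1]
  unfold Wint H64.TK.Sheets.int
  rw [Finset.mul_sum]
  refine Finset.sum_congr rfl fun i _ => ?_
  rw [← integral_const_mul]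
  congr 1
  funext z
  show _ * H83.HK.W _ = _ * H864.HK.W _
  rw [W_eq]

/-! ### Two families of sheets on the same covering -/

theorem txl_cl {X : Fin a ⊕ Fin a → E → ℂ} {p : Fin a ⊕ Fin a → K → ℂ}
    (hX : ∀ l, CAdd S (X l) (p l)) {x : Fin d → Fin S.N → Cm d → L2 d}
    (hx : ∀ l, Cl2 (quo S) (x l)) (l : Fin d) : Cl2 (quo S) (txl S X x l) := by
  by_cases h : l.val < a
  · rw [txl_lt h]
    exact wd1_cl2 (dX_cl1 (hX _)) (dX_cl1 (hX _))
  · rw [txl_ge h]
    exact hx l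

theorem dif_quo {S' : Sheets d E K} (hc : Compat S S') :
    Dif (quo S) (quo S') (Homeomorph.refl (Qs K E)) := by
  intro i j z hz z' hz' he
  obtain ⟨γ, hγ⟩ := pj_eq.1 (he : pj K (S.σ i z) = pj K (S'.σ j z'))
  obtain ⟨ψ, k1, k2, k3, k4⟩ := hc i j z hz z' hz' γ hγ.symm
  exact ⟨ψ, ⟨k1, k2, k4.mono fun u hu => by
    show pj K (S.σ i u) = pj K (S'.σ j (ψ u))
    rw [hu, pj_smul]⟩, k3⟩

/-- The integral of the integral forms does not depend on the complex structure. -/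
theorem wint_txl [T2Space (Qs K E)] {S' : Sheets d E K} (hd : 0 < d) (hc : Compat S S')
    {X X' : Fin a ⊕ Fin a → E → ℂ} {p : Fin a ⊕ Fin a → K → ℂ} (hX : ∀ l, CAdd S (X l) (p l))
    (hX' : ∀ l, CAdd S' (X' l) (p l)) {x : Fin d → Fin S.N → Cm d → L2 d}
    {x' : Fin d → Fin S'.N → Cm d → L2 d} (hx : ∀ l, Cl2 (quo S) (x l))
    (hx' : ∀ l, Cl2 (quo S') (x' l)) (hp : ∀ l, Pull2 (quo S) (quo S') id (x l) (x' l)) :
    Wint (quo S) (txl S X x) = Wint (quo S') (txl S' X' x') := by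
  have hX2 : ∀ l, CAdd S (X' l) (p l) := fun l => CAdd.compat hc (hX' l)
  have h1 : Wint (quo S) (txl S X' x) = Wint (quo S') (txl S' X' x') := by
    refine H864.HK.wint_pull (τ := Homeomorph.refl (Qs K E)) hd (dif_quo hc) (txl_cl hX2 hx)
      (txl_cl hX' hx') fun l => ?_
    intro i j z hz z' hz' ψ hψ u v
    by_cases hl : l.val < a
    · rw [txl_lt hl, txl_lt hl]
      show wd1 _ _ u v = wd1 _ _ (fderiv ℝ ψ z u) (fderiv ℝ ψ z v)
      rw [wd1_apply, wd1_apply, dX_pull (hX' _) hz hz' hψ u, dX_pull (hX' _) hz hz' hψ v, dX_pull (hX' _) hz hz' hψ u,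
        dX_pull (hX' _) hz hz' hψ v]
    · rw [txl_ge hl, txl_ge hl]
      exact hp l i j z hz z' hz' ψ hψ u v
  rw [← h1]
  refine H864.HK.wint_class (txl_cl hX hx) (txl_cl hX2 hx) fun l => ?_
  by_cases hl : l.val < a
  · rw [txl_lt hl, txl_lt hl]
    exact dX_wd_exact (hX _) (hX2 _) (hX _) (hX2 _)
  · rw [txl_ge hl, txl_ge hl]
    exact H834.HK.exact_self _

/-- **The classes of `θ / κ`**, if the determinants of the periods have the same sign. -/
theorem thRel_of_sign [T2Space (Qs K E)] {S' : Sheets d E K} (hd : 0 < d) (had : a ≤ d)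
    (hcp : Compat S S') {M : Mark K (a + a)} {F F' : E → Fin a → ℂ} {c c' : K → Fin a → ℂ}
    (hs : 0 < (PA M c).det * (PA M c').det)
    (hc : ∀ x y j, c (x * y) j = c x j + c y j) (hc' : ∀ x y j, c' (x * y) j = c' x j + c' y j)
    (h : ∀ j, Add S (fun e => F e j) (fun γ => c γ j))
    (h' : ∀ j, Add S' (fun e => F' e j) (fun γ => c' γ j)) :
    ThRel (quo S) (dF S F) (cov M c) (quo S') (dF S' F') (cov M c') id := by
  intro x x' hx hx' hp
  have d1 : (PA M c).det ≠ 0 := left_ne_zero_of_mul hs.ne'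
  have d2 : (PA M c').det ≠ 0 := right_ne_zero_of_mul hs.ne'
  have h1 := tT_cov (S := S) had d1 hc h x
  have h2 := tT_cov (S := S') had d2 hc' h' x'
  have h3 := wint_txl (S := S) (S' := S') hd hcp (X := xc M c F) (X' := xc M c' F')
    (fun l => cadd_xc d1 hc (fun j => CAdd.of_Add (h j)) l)
    (fun l => cadd_xc d2 hc' (fun j => CAdd.of_Add (h' j)) l) hx hx' hp
  show (cov M c' : ℂ) * tT (quo S) (dF S F) x = (cov M c : ℂ) * tT (quo S') (dF S' F') x'
  rw [h1, h2, h3, cov_eq, cov_eq]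
  have h4 : |(PA M c').det| * (PA M c).det = |(PA M c).det| * (PA M c').det := by
    rcases lt_or_gt_of_ne d1 with hn | hn
    · have : (PA M c').det < 0 := by
        by_contra hh
        have := mul_nonpos_of_nonpos_of_nonneg hn.le (not_lt.1 hh)
        linarith
      rw [abs_of_neg hn, abs_of_neg this]
      ring
    · have : 0 < (PA M c').det := by
        by_contra hh
        have := mul_nonpos_of_nonneg_of_nonpos hn.le (not_lt.1 hh)
        linarith
      rw [abs_of_pos hn, abs_of_pos this]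
      ring
  rw [← mul_assoc, ← mul_assoc, ← Complex.ofReal_mul, ← Complex.ofReal_mul, h4]

end

end Vale.Agent.P281.H834.HKT
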