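import Vale.Agent.P281.H834.HK.Kw

/-!
# P281, project T-HKT (helper834): the product of two closed 1-forms, and its class
-/

open Set Filter Metric MeasureTheory
open scoped Topology ContDiff ComplexConjugate ComplexOrder

noncomputable section

namespace Vale.Agent.P281.H834.HKT

open Vale.Agent.P281.H64.TK Vale.Agent.P281.H64.TK.TS
open Vale.Agent.P281.H64 (Cm)
open Vale.Agent.P281.H834.TS (fderiv_ev2 fderiv_eval)

variable {d : ℕ}

/-- `b ∧ c`, for 1-forms `b`, `c` (at a point). -/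
def wd1 (b c : L1 d) : L2 d :=
  H83.HK.mkL (LinearMap.mk₂ ℝ (fun u v : Cm d => b u * c v - b v * c u)
    (by intro u u' v; simp only [map_add]; ring)
    (by intro r u v; simp only [map_smul, Complex.real_smul]; ring)
    (by intro u v v'; simp only [map_add]; ring)
    (by intro r u v; simp only [map_smul, Complex.real_smul]; ring))

@[simp] theorem wd1_apply (b c : L1 d) (u v : Cm d) : wd1 b c u v = b u * c v - b v * c u := rfl

theorem cda_clm {V F G : Type} [NormedAddCommGroup V] [NormedSpace ℝ V] [NormedAddCommGroup F]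
    [NormedSpace ℝ F] [FiniteDimensional ℝ F] [NormedAddCommGroup G] [NormedSpace ℝ G]
    {f : V → F →L[ℝ] G} {z : V} (h : ∀ y, ContDiffAt ℝ ∞ (fun x => f x y) z) :
    ContDiffAt ℝ ∞ f z := by
  let d := Module.finrank ℝ F
  have hd : d = Module.finrank ℝ (Fin d → ℝ) := (Module.finrank_fin_fun ℝ).symm
  let e₁ := ContinuousLinearEquiv.ofFinrankEq hd
  let e₂ := (e₁.arrowCongr (1 : G ≃L[ℝ] G)).trans (ContinuousLinearEquiv.piRing (Fin d))
  rw [← Function.id_comp f, ← e₂.symm_comp_self]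
  exact e₂.symm.contDiff.contDiffAt.comp z (contDiffAt_pi.mpr fun i => h _)

theorem wd1_smooth {b c : Cm d → L1 d} {z : Cm d} (hb : ContDiffAt ℝ ∞ b z)
    (hc : ContDiffAt ℝ ∞ c z) : ContDiffAt ℝ ∞ (fun z => wd1 (b z) (c z)) z := by
  refine cda_clm fun u => cda_clm fun v => ?_
  simp only [wd1_apply]
  exact ((hb.clm_apply contDiffAt_const).mul (hc.clm_apply contDiffAt_const)).sub
    ((hb.clm_apply contDiffAt_const).mul (hc.clm_apply contDiffAt_const))

theorem fderiv_wd1 {b c : Cm d → L1 d} {z : Cm d} (hb : ContDiffAt ℝ ∞ b z)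
    (hc : ContDiffAt ℝ ∞ c z) (u v w : Cm d) :
    fderiv ℝ (fun z => wd1 (b z) (c z)) z u v w =
      fderiv ℝ b z u v * c z w + b z v * fderiv ℝ c z u w -
        (fderiv ℝ b z u w * c z v + b z w * fderiv ℝ c z u v) := by
  have h1 : DifferentiableAt ℝ (fun z => wd1 (b z) (c z)) z :=
    (wd1_smooth hb hc).differentiableAt (by simp)
  have hb1 : DifferentiableAt ℝ b z := hb.differentiableAt (by simp)
  have hc1 : DifferentiableAt ℝ c z := hc.differentiableAt (by simp)
  have hbv : ∀ v, DifferentiableAt ℝ (fun z => b z v) z := fun v =>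
    hb1.clm_apply (differentiableAt_const v)
  have hcv : ∀ v, DifferentiableAt ℝ (fun z => c z v) z := fun v =>
    hc1.clm_apply (differentiableAt_const v)
  rw [← fderiv_ev2 h1]
  simp only [wd1_apply]
  rw [fderiv_fun_sub ((hbv v).fun_mul (hcv w)) ((hbv w).fun_mul (hcv v)),
    fderiv_fun_mul (hbv v) (hcv w), fderiv_fun_mul (hbv w) (hcv v)]
  have e1 : ∀ v, fderiv ℝ (fun z => b z v) z u = fderiv ℝ b z u v := fun v => fderiv_eval hb1 u v
  have e2 : ∀ v, fderiv ℝ (fun z => c z v) z u = fderiv ℝ c z u v := fun v => fderiv_eval hc1 u v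
  simp only [sub_apply, add_apply, smul_apply, smul_eq_mul, e1, e2]
  ring

section
variable {E Γ : Type} [TopologicalSpace E] [Group Γ] [MulAction Γ E]

/-- `β` is a closed smooth 1-form on `E`. -/
structure Cl1 (S : Sheets d E Γ) (β : Fin S.N → Cm d → L1 d) : Prop extends F1On S univ β where
  closed : ∀ i, ∀ z ∈ ball (0 : Cm d) 3, ∀ u v, fderiv ℝ (β i) z u v = fderiv ℝ (β i) z v u

variable {S : Sheets d E Γ}

/-- The product of two closed 1-forms is a closed 2-form. -/
theorem wd1_cl2 {b c : Fin S.N → Cm d → L1 d} (hb : Cl1 S b) (hc : Cl1 S c) :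
    Cl2 S (fun i z => wd1 (b i z) (c i z)) := by
  refine ⟨⟨fun i z hz hx => wd1_smooth (hb.smooth i z hz hx) (hc.smooth i z hz hx), ?_, ?_⟩, ?_⟩
  · intro i z _ _ u v
    simp only [wd1_apply]
    ring
  · intro i j z hz z' hz' hx ψ hψ u v
    simp only [wd1_apply, hb.change i j z hz z' hz' hx ψ hψ, hc.change i j z hz z' hz' hx ψ hψ]
  · intro i z hz u v w
    have sb := hb.smooth i z hz (mem_univ _)
    have sc := hc.smooth i z hz (mem_univ _)
    rw [fderiv_wd1 sb sc, fderiv_wd1 sb sc, fderiv_wd1 sb sc]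
    have b1 := hb.closed i z hz
    have c1 := hc.closed i z hz
    rw [b1 v u, b1 w u, b1 w v, c1 v u, c1 w u, c1 w v]
    ring

/-- It is real for real 1-forms. -/
theorem wd1_real {b c : Fin S.N → Cm d → L1 d}
    (hb : ∀ i, ∀ z ∈ ball (0 : Cm d) 3, ∀ u, (b i z u).im = 0)
    (hc : ∀ i, ∀ z ∈ ball (0 : Cm d) 3, ∀ u, (c i z u).im = 0) :
    Real2 S (fun i z => wd1 (b i z) (c i z)) := by
  intro i z hz u v
  rw [wd1_apply, Complex.sub_im, Complex.mul_im, Complex.mul_im, hb i z hz, hb i z hz, hc i z hz,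
    hc i z hz]
  ring

theorem fderiv_smul1 {f : Cm d → ℂ} {c : Cm d → L1 d} {z : Cm d} (hf : ContDiffAt ℝ ∞ f z)
    (hc : ContDiffAt ℝ ∞ c z) (u v : Cm d) : ContDiffAt ℝ ∞ (fun z => f z • c z) z ∧
    fderiv ℝ (fun z => f z • c z) z u v = fderiv ℝ f z u * c z v + f z * fderiv ℝ c z u v := by
  have h1 : ContDiffAt ℝ ∞ (fun z => f z • c z) z := by
    refine cda_clm fun v => ?_
    simp only [smul_apply, smul_eq_mul]
    exact hf.mul (hc.clm_apply contDiffAt_const)
  refine ⟨h1, ?_⟩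
  have hf1 : DifferentiableAt ℝ f z := hf.differentiableAt (by simp)
  have hc1 : DifferentiableAt ℝ c z := hc.differentiableAt (by simp)
  have hcv : DifferentiableAt ℝ (fun z => c z v) z := hc1.clm_apply (differentiableAt_const v)
  rw [← fderiv_eval (h1.differentiableAt (by simp)) u v]
  simp only [smul_apply, smul_eq_mul]
  rw [fderiv_fun_mul hf1 hcv]
  have e2 : fderiv ℝ (fun z => c z v) z u = fderiv ℝ c z u v := fderiv_eval hc1 u v
  simp only [add_apply, smul_apply, smul_eq_mul, e2]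
  ring

/-- **The class of the product depends on the classes of the factors only.** -/
theorem wd1_exact_sub {b b' c c' : Fin S.N → Cm d → L1 d} (hb' : Cl1 S b')
    (hc : Cl1 S c) {g g' : E → ℂ} (hg : SmOn S univ g) (hg' : SmOn S univ g')
    (eb : ∀ i, ∀ z ∈ ball (0 : Cm d) 3, fderiv ℝ (fun u => g (S.σ i u)) z = b i z - b' i z)
    (ec : ∀ i, ∀ z ∈ ball (0 : Cm d) 3, fderiv ℝ (fun u => g' (S.σ i u)) z = c i z - c' i z) :
    Exact S (fun i z => wd1 (b i z) (c i z) - wd1 (b' i z) (c' i z)) := by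
  have e1 : ∀ i, ∀ z ∈ ball (0 : Cm d) 3, ∀ u v,
      ContDiffAt ℝ ∞ (fun z => g (S.σ i z) • c i z) z ∧
      fderiv ℝ (fun z => g (S.σ i z) • c i z) z u v =
        (b i z u - b' i z u) * c i z v + g (S.σ i z) * fderiv ℝ (c i) z u v := by
    intro i z hz u v
    obtain ⟨h1, h2⟩ := fderiv_smul1 (hg i z hz (mem_univ _)) (hc.smooth i z hz (mem_univ _)) u v
    refine ⟨h1, ?_⟩
    rw [h2, eb i z hz]
    rfl
  have e2 : ∀ i, ∀ z ∈ ball (0 : Cm d) 3, ∀ u v,
      ContDiffAt ℝ ∞ (fun z => g' (S.σ i z) • b' i z) z ∧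
      fderiv ℝ (fun z => g' (S.σ i z) • b' i z) z u v =
        (c i z u - c' i z u) * b' i z v + g' (S.σ i z) * fderiv ℝ (b' i) z u v := by
    intro i z hz u v
    obtain ⟨h1, h2⟩ := fderiv_smul1 (hg' i z hz (mem_univ _)) (hb'.smooth i z hz (mem_univ _)) u v
    refine ⟨h1, ?_⟩
    rw [h2, ec i z hz]
    rfl
  refine ⟨fun i z => g (S.σ i z) • c i z - g' (S.σ i z) • b' i z, ⟨fun i z hz _ => ?_, ?_⟩, ?_⟩
  · exact (e1 i z hz 0 0).1.sub (e2 i z hz 0 0).1
  · intro i j z hz z' hz' hx ψ hψ v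
    have h0 : S.σ i z = S.σ j z' := by
      have h1 := hψ.2.2.self_of_nhds
      rw [hψ.2.1] at h1
      exact h1
    simp only [sub_apply, smul_apply, smul_eq_mul, h0, hc.change i j z hz z' hz' hx ψ hψ v,
      hb'.change i j z hz z' hz' hx ψ hψ v]
  · intro i z hz _ u v
    have hs1 : DifferentiableAt ℝ (fun z => g (S.σ i z) • c i z) z :=
      (e1 i z hz 0 0).1.differentiableAt (by simp)
    have hs2 : DifferentiableAt ℝ (fun z => g' (S.σ i z) • b' i z) z :=
      (e2 i z hz 0 0).1.differentiableAt (by simp)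
    rw [fderiv_fun_sub hs1 hs2]
    simp only [sub_apply]
    rw [(e1 i z hz u v).2, (e1 i z hz v u).2, (e2 i z hz u v).2, (e2 i z hz v u).2,
      hc.closed i z hz v u, hb'.closed i z hz v u, wd1_apply, wd1_apply]
    ring

end

end Vale.Agent.P281.H834.HKT
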